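import Mathlib.GroupTheory.HNNExtension
import Mathlib.GroupTheory.Coprod.Basic
import Mathlib.GroupTheory.SemidirectProduct
import Mathlib.GroupTheory.FreeGroup.Basic
import Mathlib.Data.Countable.Basic
import Mathlib.Tactic.Abel

/-!
# Every countable group embeds in a group with two generators (Higman, Neumann, Neumann)
-/

set_option autoImplicit false

namespace Vale.Agent.P089.H166

open Monoid (Coprod)
open Multiplicative (toAdd ofAdd)

/-- the shift action of `ℤ` on the free group on `ℤ` -/
def shiftAct : Multiplicative ℤ →* MulAut (FreeGroup ℤ) where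
  toFun k := FreeGroup.freeGroupCongr (Equiv.addRight (toAdd k))
  map_one' := by
    ext x
    refine congrArg (fun f : FreeGroup ℤ →* FreeGroup ℤ => f x)
      (?_ : (FreeGroup.freeGroupCongr (Equiv.addRight (0 : ℤ))).toMonoidHom = MonoidHom.id _)
    ext y
    simp
  map_mul' k l := by
    ext x
    refine congrArg (fun f : FreeGroup ℤ →* FreeGroup ℤ => f x)
      (?_ : (FreeGroup.freeGroupCongr (Equiv.addRight (toAdd (k * l)))).toMonoidHom =
        (FreeGroup.freeGroupCongr (Equiv.addRight (toAdd k))).toMonoidHom.comp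
        (FreeGroup.freeGroupCongr (Equiv.addRight (toAdd l))).toMonoidHom)
    ext y
    have e : ∀ (m : ℤ) (z : ℤ), FreeGroup.freeGroupCongr (Equiv.addRight m) (FreeGroup.of z) =
        FreeGroup.of (z + m) := fun m z => by simp
    change FreeGroup.freeGroupCongr (Equiv.addRight (toAdd (k * l))) (FreeGroup.of y) =
      FreeGroup.freeGroupCongr (Equiv.addRight (toAdd k))
        (FreeGroup.freeGroupCongr (Equiv.addRight (toAdd l)) (FreeGroup.of y))
    rw [e, e, e, toAdd_mul]
    congr 1
    abel

theorem shiftAct_of (k : Multiplicative ℤ) (y : ℤ) :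
    shiftAct k (FreeGroup.of y) = FreeGroup.of (y + toAdd k) := by
  change FreeGroup.freeGroupCongr (Equiv.addRight (toAdd k)) (FreeGroup.of y) = _
  simp

/-- `FreeGroup ℤ ⋊ ℤ` -/
abbrev SD : Type := FreeGroup ℤ ⋊[shiftAct] Multiplicative ℤ

/-- the generator of `ℤ` -/
def shf : SD := SemidirectProduct.inr (ofAdd (1 : ℤ))

/-- the generator number 0 of the free group -/
def ori : SD := SemidirectProduct.inl (FreeGroup.of 0)

theorem conj_ori (n : ℕ) : (shf ^ n)⁻¹ * ori * shf ^ n =
    SemidirectProduct.inl (FreeGroup.of (-(n : ℤ))) := by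
  have h := SemidirectProduct.inl_aut_inv (φ := shiftAct) (ofAdd (n : ℤ)) (FreeGroup.of 0)
  have e : shf ^ n = SemidirectProduct.inr (ofAdd (n : ℤ)) := by
    rw [shf, ← map_pow, ← ofAdd_nsmul]
    simp
  have e2 : (shiftAct (ofAdd (n : ℤ)))⁻¹ (FreeGroup.of 0) = FreeGroup.of (-(n : ℤ)) := by
    rw [← map_inv, shiftAct_of]
    simp
  rw [e2] at h
  rw [h, e, ← map_inv]
  rfl

/-- the elements `y^(-n) x y^n` of a group -/
def cj {P : Type} [Group P] (x y : P) (n : ℕ) : P := (y ^ n)⁻¹ * x * y ^ n

theorem map_cj {P Q : Type} [Group P] [Group Q] (f : P →* Q) (x y : P) (n : ℕ) :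
    f (cj x y n) = cj (f x) (f y) n := by
  simp [cj]

/-- if `x`, `y` are sent to the standard generators then the `y^(-n) x y^n` are free -/
theorem free_of_map {P : Type} [Group P] (w : ℕ → P) (f : P →* SD)
    (hw : ∀ n, f (w n) = SemidirectProduct.inl (FreeGroup.of (-(n : ℤ)))) :
    Function.Injective (FreeGroup.lift w) := by
  have h : f.comp (FreeGroup.lift w) =
      (SemidirectProduct.inl : FreeGroup ℤ →* SD).comp (FreeGroup.map fun n : ℕ => -(n : ℤ)) := by
    ext n
    · simp [hw]
    · simp [hw]
  have h1 : Function.Injective (f.comp (FreeGroup.lift w)) := by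
    rw [h]
    refine SemidirectProduct.inl_injective.comp (FreeGroup.map_injective fun m n hmn => ?_)
    have : (m : ℤ) = n := by simpa using hmn
    exact_mod_cast this
  exact Function.Injective.of_comp (f := f) h1

variable (G : Type) [Group G]

/-- the free product of `G` and the free group on two letters -/
abbrev Fr : Type := Coprod G (FreeGroup Bool)

/-- the two letters -/
def ltr (i : Bool) : Fr G := Coprod.inr (FreeGroup.of i)

/-- retraction onto `FreeGroup ℤ ⋊ ℤ`, the letter `i` is the shift -/
def ret (i : Bool) : Fr G →* SD :=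
  Coprod.lift 1 (FreeGroup.lift fun j => if j = i then shf else ori)

theorem ret_ltr (i j : Bool) : ret G i (ltr G j) = if j = i then shf else ori := by
  simp [ret, ltr]

theorem ret_inl (i : Bool) (g : G) : ret G i (Coprod.inl g) = 1 := by
  simp [ret]

variable {G}

/-- first family `b^(-n) a b^n` -/
def fam1 (n : ℕ) : Fr G := cj (ltr G false) (ltr G true) n

/-- second family `g_n a^(-n) b a^n` -/
def fam2 (g : ℕ → G) (n : ℕ) : Fr G := Coprod.inl (g n) * cj (ltr G true) (ltr G false) n

theorem fam1_injective : Function.Injective (FreeGroup.lift (fam1 (G := G))) := by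
  refine free_of_map _ (ret G true) fun n => ?_
  rw [fam1, map_cj, ret_ltr, ret_ltr, if_neg (by decide), if_pos rfl, cj, conj_ori]

theorem fam2_injective (g : ℕ → G) : Function.Injective (FreeGroup.lift (fam2 g)) := by
  refine free_of_map _ (ret G false) fun n => ?_
  rw [fam2, map_mul, ret_inl, one_mul, map_cj, ret_ltr, ret_ltr, if_neg (by decide), if_pos rfl, cj,
    conj_ori]

/-- the isomorphism of the two free subgroups -/
noncomputable def iso (g : ℕ → G) :
    (FreeGroup.lift (fam1 (G := G))).range ≃* (FreeGroup.lift (fam2 g)).range :=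
  (MonoidHom.ofInjective fam1_injective).symm.trans (MonoidHom.ofInjective (fam2_injective g))

/-- the two generator group -/
abbrev Gm (g : ℕ → G) : Type :=
  HNNExtension (Fr G) (FreeGroup.lift (fam1 (G := G))).range (FreeGroup.lift (fam2 g)).range (iso g)

theorem rel (g : ℕ → G) (n : ℕ) : (HNNExtension.t : Gm g) * HNNExtension.of (fam1 n) =
    HNNExtension.of (fam2 g n) * HNNExtension.t := by
  have h1 : fam1 n = FreeGroup.lift (fam1 (G := G)) (FreeGroup.of n) := by simp
  have h2 : fam2 g n = FreeGroup.lift (fam2 g) (FreeGroup.of n) := by simp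
  have h := HNNExtension.t_mul_of (φ := iso g)
    (MonoidHom.ofInjective fam1_injective (FreeGroup.of n))
  have h3 : iso g (MonoidHom.ofInjective fam1_injective (FreeGroup.of n)) =
      MonoidHom.ofInjective (fam2_injective g) (FreeGroup.of n) := by
    simp [iso]
  rw [h3, MonoidHom.ofInjective_apply, MonoidHom.ofInjective_apply, ← h1, ← h2] at h
  exact h

theorem closure_eq_top (g : ℕ → G) (h0 : g 0 = 1) (hs : ∀ x, ∃ n, g n = x) :
    Subgroup.closure {HNNExtension.of (ltr G false), (HNNExtension.t : Gm g)} = ⊤ := by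
  set S := Subgroup.closure {HNNExtension.of (ltr G false), (HNNExtension.t : Gm g)} with hS
  have ha : (HNNExtension.of (ltr G false) : Gm g) ∈ S := Subgroup.subset_closure (by simp)
  have ht : (HNNExtension.t : Gm g) ∈ S := Subgroup.subset_closure (by simp)
  have key : ∀ n, (HNNExtension.of (fam2 g n) : Gm g) =
      HNNExtension.t * HNNExtension.of (fam1 n) * HNNExtension.t⁻¹ := fun n => by
    rw [rel, mul_inv_cancel_right]
  have hb : (HNNExtension.of (ltr G true) : Gm g) ∈ S := by
    have h1 : fam2 g 0 = ltr G true := by simp [fam2, cj, h0]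
    have h2 : fam1 (G := G) 0 = ltr G false := by simp [fam1, cj]
    have h3 := key 0
    rw [h1, h2] at h3
    rw [h3]
    exact S.mul_mem (S.mul_mem ht ha) (S.inv_mem ht)
  have hcj : ∀ (x y : Fr G) (n : ℕ), (HNNExtension.of x : Gm g) ∈ S →
      (HNNExtension.of y : Gm g) ∈ S → (HNNExtension.of (cj x y n) : Gm g) ∈ S := by
    intro x y n hx hy
    rw [map_cj, cj]
    exact S.mul_mem (S.mul_mem (S.inv_mem (S.pow_mem hy n)) hx) (S.pow_mem hy n)
  have hg : ∀ x : G, (HNNExtension.of (Coprod.inl x : Fr G) : Gm g) ∈ S := by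
    intro x
    obtain ⟨n, rfl⟩ := hs x
    have h1 : (HNNExtension.of (fam2 g n) : Gm g) ∈ S := by
      rw [key]
      exact S.mul_mem (S.mul_mem ht (hcj _ _ _ ha hb)) (S.inv_mem ht)
    have h2 : (Coprod.inl (g n) : Fr G) = fam2 g n * (cj (ltr G true) (ltr G false) n)⁻¹ := by
      rw [fam2, mul_inv_cancel_right]
    rw [h2, map_mul, map_inv]
    exact S.mul_mem h1 (S.inv_mem (hcj _ _ _ hb ha))
  have hf : ∀ x : Fr G, (HNNExtension.of x : Gm g) ∈ S := by
    intro x
    induction x using Coprod.induction_on with
    | inl m => exact hg m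
    | inr n =>
      induction n using FreeGroup.induction_on with
      | C1 => simp
      | of i => cases i <;> assumption
      | inv_of i hi => rw [map_inv, map_inv]; exact S.inv_mem hi
      | mul x y hx hy => rw [map_mul, map_mul]; exact S.mul_mem hx hy
    | mul x y hx hy => rw [map_mul]; exact S.mul_mem hx hy
  refine (Subgroup.eq_top_iff' S).2 fun x => ?_
  induction x using HNNExtension.induction_on with
  | of x => exact hf x
  | t => exact ht
  | mul x y hx hy => exact S.mul_mem hx hy
  | inv x hx => exact S.inv_mem hx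

/-- **Higman, Neumann, Neumann.** Every countable group embeds in a group generated by two
elements. -/
theorem exists_two_generated (G : Type) [Group G] [Countable G] :
    ∃ (Γ : Type) (_ : Group Γ) (ι : G →* Γ), Function.Injective ι ∧
      ∃ a t : Γ, Subgroup.closure {a, t} = ⊤ := by
  obtain ⟨f, hf⟩ := exists_surjective_nat G
  set g : ℕ → G := fun n => if n = 0 then 1 else f (n - 1) with hg
  refine ⟨Gm g, inferInstance, HNNExtension.of.comp Coprod.inl,
    (HNNExtension.of_injective _).comp Coprod.inl_injective, _, _, closure_eq_top g ?_ ?_⟩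
  · simp [hg]
  · intro x
    obtain ⟨n, rfl⟩ := hf x
    exact ⟨n + 1, by simp [hg]⟩

end Vale.Agent.P089.H166
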